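import Vale.Agent.P249.Main

open Vale.Agent.P249

theorem Vale.Agent.Results.P249.Subpoly.result (p D η : ℝ) (hp : 1 < p) (hD : 1 < D)
    (hη : 0 < η) : ∃ n₀ : ℕ, ∀ n ≥ n₀, ∀ (m : ℕ) (X : Finset (Fin m → ℝ)), X.card = n →
      ∃ d : ℕ, (d : ℝ) ≤ (n : ℝ) ^ η ∧
        ∃ (f : (Fin m → ℝ) → (Fin d → ℝ)) (s : ℝ), 0 < s ∧ ∀ x ∈ X, ∀ y ∈ X,
          s * lp p (x - y) ≤ lp p (f x - f y) ∧ lp p (f x - f y) ≤ D * s * lp p (x - y) := by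
  classical
  obtain ⟨n₀, h⟩ := Filter.eventually_atTop.1 (dim_red hp hD hη)
  refine ⟨n₀, fun n hn m X hX => ?_⟩
  obtain ⟨d, hd, f, s, hs, hf⟩ := h n hn (↥X) (Fin m) (fun x => x.1) (by simpa using hX)
  refine ⟨d, hd, fun x => if hx : x ∈ X then f ⟨x, hx⟩ else 0, s, hs, fun x hx y hy => ?_⟩
  simp only [dif_pos hx, dif_pos hy]
  exact hf ⟨x, hx⟩ ⟨y, hy⟩
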